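import Vale.Agent.N304.Univ
import Vale.Agent.P304Z.Final
import Vale.Agent.P304Z.LB1
import Vale.Agent.P304Z.LB2
import Vale.Agent.P304Z.LB3
import Vale.Agent.P304Z.LB4
import Vale.Agent.P304Z.LB5

/-!
# P304: the order of growth
-/

namespace Vale.Agent.P304.N

open Vale.Agent.P304

theorem R_ne_top {k : ℕ} (hk : 1 ≤ k) : R k ≠ ⊤ := by
  obtain ⟨C, -, hu⟩ := Vale.Agent.P304Z.R_le_log_sq
  exact ne_top_of_le_ne_top ENNReal.ofReal_ne_top (hu k hk)

theorem order : ∃ c C : ℝ, 0 < c ∧ 0 < C ∧ ∀ k : ℕ, 2 ≤ k →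
    ENNReal.ofReal (c * Real.log k ^ 2) ≤ R k ∧ R k ≤ ENNReal.ofReal (C * Real.log k ^ 2) := by
  obtain ⟨c, hc, hl⟩ := Vale.Agent.P304Z.LB.lower_of Vale.Agent.P304Z.LB.stBase
    (Vale.Agent.P304Z.LB.stStep (Vale.Agent.P304Z.LB.stMid Vale.Agent.P304Z.LB.rules))
    Vale.Agent.P304Z.LB.stExtract Vale.Agent.P304Z.LB.stReduce
  obtain ⟨C, hC, hu⟩ := Vale.Agent.P304Z.R_le_log_sq
  refine ⟨c, 9 * C, hc, by positivity, fun k hk => ?_⟩
  have hk2 : (2 : ℝ) ≤ k := by exact_mod_cast hk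
  have hlog : Real.log 2 ≤ Real.log k := Real.log_le_log (by norm_num) hk2
  have hl2 := Real.log_two_gt_d9
  constructor
  · refine le_trans (ENNReal.ofReal_le_ofReal ?_) (hl k (by omega))
    refine mul_le_mul_of_nonneg_left ?_ hc.le
    nlinarith
  · refine (hu k (by omega)).trans (ENNReal.ofReal_le_ofReal ?_)
    have h1 : (1 + Real.log k) ^ 2 ≤ (3 * Real.log k) ^ 2 :=
      pow_le_pow_left₀ (by linarith) (by linarith) 2
    calc C * (1 + Real.log k) ^ 2 ≤ C * (3 * Real.log k) ^ 2 :=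
          mul_le_mul_of_nonneg_left h1 hC.le
      _ = 9 * C * Real.log k ^ 2 := by ring

end Vale.Agent.P304.N
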