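import Vale.Agent.P304.Bdl.B2

/-!
# P304: competitiveness without additive constant, from every starting position
-/

open MeasureTheory Filter Topology
open scoped ENNReal NNReal

namespace Vale.Agent.P304.N

open Vale.Agent.P304

variable {k : ℕ}

/-- The refined strict inequality on finite spaces, from distinct starting positions. -/
theorem cost_refined {Y : Type} [MetricSpace Y] [Finite Y] [NeZero k] (s : Fin k → Y)
    (hs : Function.Injective s) {c B : ℝ} (hc : 1 ≤ c) (hG : Good s c B Set.univ) {ε : ℝ}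
    (hε : 0 < ε) (G : ℝ → ℝ) (hGb : ∀ (q : Fin k → Y) (t : ℝ), mdist s q ≤ t → mdist s q ≤ G t) :
    HasCost s Set.univ (fun σ => c * opt s σ + (c - 1) * G (opt s σ) + ε) := by
  obtain ⟨Ω, m, P, A, hP, hA, hcl⟩ := exists_closed s hs (by linarith only [hc]) hG
    (ε := ε / 2) (by linarith only [hε])
  refine ⟨Ω, m, P, A, hP, hA, ?_⟩
  intro σ _
  have hint1 : ∀ σ, Integrable (fun ω => runCost (A ω) [] s σ) P := fun σ =>
    integrable_run hA s σ (fun x _ => x)
  have hint2 : ∀ q σ, Integrable (fun ω => mdist (runPos (A ω) [] s σ) q) P := fun q σ =>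
    integrable_run hA s σ (fun _ x => mdist x q)
  have hG' : ∀ σ, ∫ ω, runCost (A ω) [] s σ ∂P ≤ (2 * c) * opt s σ + ε / 2 := by
    intro σ
    have h1 := hcl σ
    have h2 : ∫ ω, runCost (A ω) [] s σ ∂P
        ≤ ∫ ω, (runCost (A ω) [] s σ + mdist (runPos (A ω) [] s σ) s) ∂P :=
      integral_mono (hint1 σ) ((hint1 σ).add (hint2 s σ)) fun ω => by
        have := mdist_nonneg (runPos (A ω) [] s σ) s
        linarith only [this]
    obtain ⟨q, -, h3, h4⟩ := exists_final σ s hs
    have h5 : wf s s σ ≤ wf q s σ + mdist q s := by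
      have := wf_append_le s q σ [] s
      simpa only [ge_iff_le, List.append_nil, wf] using this
    rw [mdist_comm] at h5
    have h6 : c * wf s s σ ≤ c * (2 * opt s σ) :=
      mul_le_mul_of_nonneg_left (by linarith only [h3, h4, h5]) (by linarith only [hc])
    linarith
  obtain ⟨q, hq, h3, h4⟩ := exists_final σ s hs
  obtain ⟨N, hN⟩ := exists_force hA s (by linarith only [hc]) hG' q hq σ (η := ε / 2)
    (by linarith only [hε])
  have h5 := hcl (σ ++ blk q (N + 1))
  have h6 : wf s s (σ ++ blk q (N + 1)) ≤ opt s σ + mdist q s := by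
    have h7 := wf_append_le s q σ (blk q (N + 1)) s
    have h8 := wf_of_mem s q (blk q (N + 1)) (blk_mem q (N + 1))
    linarith only [h3, h7, h8]
  have h7 : ∫ ω, policyCost s (A ω) σ ∂P + mdist q s - ε / 2
      ≤ ∫ ω, (runCost (A ω) [] s (σ ++ blk q (N + 1))
        + mdist (runPos (A ω) [] s (σ ++ blk q (N + 1))) s) ∂P := by
    have h8 : ∫ ω, (runCost (A ω) [] s σ + (mdist q s
        - mdist (runPos (A ω) [] s (σ ++ blk q (N + 1))) q)) ∂P
        ≤ ∫ ω, (runCost (A ω) [] s (σ ++ blk q (N + 1))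
        + mdist (runPos (A ω) [] s (σ ++ blk q (N + 1))) s) ∂P := by
      refine integral_mono ((hint1 _).add ((integrable_const _).sub (hint2 q _)))
        ((hint1 _).add (hint2 s _)) fun ω => ?_
      have h9 := mdist_triangle q (runPos (A ω) [] s (σ ++ blk q (N + 1))) s
      rw [mdist_comm q (runPos (A ω) [] s (σ ++ blk q (N + 1)))] at h9
      have h10 := runCost_nonneg (A ω) (blk q (N + 1)) ([] ++ σ) (runPos (A ω) [] s σ)
      have h11 := runCost_append (A ω) σ (blk q (N + 1)) [] s
      simp only at *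
      linarith only [h9, h10, h11]
    have h12 : ∫ ω, (runCost (A ω) [] s σ + (mdist q s
        - mdist (runPos (A ω) [] s (σ ++ blk q (N + 1))) q)) ∂P
        = ∫ ω, policyCost s (A ω) σ ∂P + (mdist q s
          - ∫ ω, mdist (runPos (A ω) [] s (σ ++ blk q (N + 1))) q ∂P) := by
      have e1 := integral_add (hint1 σ) ((integrable_const (μ := P) (mdist q s)).sub
        (hint2 q (σ ++ blk q (N + 1))))
      have e2 := integral_sub (integrable_const (μ := P) (mdist q s))
        (hint2 q (σ ++ blk q (N + 1)))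
      simp only [Pi.sub_apply] at e1
      rw [e1, e2]
      simp only [integral_const, probReal_univ, smul_eq_mul, one_mul, policyCost_eq]
    linarith only [hN, h8, h12]
  have h13 : c * wf s s (σ ++ blk q (N + 1)) ≤ c * (opt s σ + mdist q s) :=
    mul_le_mul_of_nonneg_left h6 (by linarith only [hc])
  have h4' := hGb q _ h4
  rw [mdist_comm] at h4'
  have h14 : (c - 1) * mdist q s ≤ (c - 1) * G (opt s σ) :=
    mul_le_mul_of_nonneg_left h4' (by linarith only [hc])
  show ∫ ω, policyCost s (A ω) σ ∂P ≤ c * opt s σ + (c - 1) * G (opt s σ) + ε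
  linarith

theorem hasCost_embed {X Y : Type} [MetricSpace X] [MetricSpace Y] [NeZero k] {e : Y → X}
    (he : Isometry e) [Nonempty Y] {s : Fin k → Y} {φ : List Y → ℝ} {ψ : List X → ℝ}
    (h : HasCost s Set.univ φ) (hφ : ∀ σ, φ σ ≤ ψ (σ.map e)) {S : Set (List X)}
    (hS : ∀ σ ∈ S, ∃ τ : List Y, τ.map e = σ) : HasCost (e ∘ s) S ψ := by
  obtain ⟨Ω, m, P, A, h1, h2, h3⟩ := h
  set g : X → Y := Function.invFun e with hg
  have hge : ∀ y, g (e y) = y := Function.leftInverse_invFun he.injective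
  refine ⟨Ω, m, P, fun ω h => A ω (h.map g), h1, fun h => h2 _, ?_⟩
  intro σ' hσ'
  obtain ⟨σ, rfl⟩ := hS σ' hσ'
  have h4 : ∀ ω, policyCost (e ∘ s) (fun h => A ω (h.map g)) (σ.map e)
      = policyCost s (A ω) σ := by
    intro ω
    rw [policyCost_eq, policyCost_eq]
    have := runCost_embed he g hge (A ω) σ [] s
    simpa using this
  simp only [h4]
  exact (h3 σ (Set.mem_univ _)).trans (hφ σ)

theorem exists_finset_card {X : Type} (hX : ((k + 1 : ℕ) : ℕ∞) ≤ ENat.card X) :
    ∃ T0 : Finset X, T0.card = k + 1 := by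
  rcases finite_or_infinite X with hf | hf
  · have := Fintype.ofFinite X
    rw [ENat.card_eq_coe_fintype_card] at hX
    have : k + 1 ≤ (Finset.univ : Finset X).card := by
      rw [Finset.card_univ]; exact_mod_cast hX
    obtain ⟨t, -, ht⟩ := Finset.exists_subset_card_eq this
    exact ⟨t, ht⟩
  · obtain ⟨t, ht⟩ := Infinite.exists_subset_card_eq X (k + 1)
    exact ⟨t, ht⟩

theorem ratio_le_R {X : Type} [MetricSpace X] [NeZero k] (s : Fin k → X) : ratio s ≤ R k := by
  rw [R_eq_Linf]; exact ratio_le_Linf s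

/-- every constant above the ratio is a competitive constant -/
theorem good_of_lt {X : Type} [MetricSpace X] {s : Fin k → X} (hfin : ratio s ≠ ⊤) {c : ℝ}
    (hc : (ratio s).toReal < c) : ∃ B, Good s c B Set.univ := by
  have hc0 : 0 ≤ c := ENNReal.toReal_nonneg.trans hc.le
  lift c to ℝ≥0 using hc0
  have h1 : ratio s < (c : ℝ≥0∞) := by
    rw [← ENNReal.ofReal_toReal hfin, ← ENNReal.ofReal_coe_nnreal]
    exact (ENNReal.ofReal_lt_ofReal_iff (ENNReal.toReal_nonneg.trans_lt hc)).2 hc
  exact (isCompetitive_iff s c).1 (isCompetitive_of_ratio_lt h1)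

/-- restriction to a subspace -/
theorem good_restrict {X : Type} [MetricSpace X] [NeZero k] {s : Fin k → X} {c B : ℝ}
    (h : Good s c B Set.univ) (T : Finset X) (hsT : ∀ i, s i ∈ T) :
    Good (fun i => (⟨s i, hsT i⟩ : T)) c B Set.univ := by
  have h1 := Good.comap (e := (Subtype.val : T → X)) (s := fun i => (⟨s i, hsT i⟩ : T))
    (S := Set.univ) (S' := Set.univ) one_pos (fun a b => by rw [one_mul]; rfl)
    (fun σ _ => Set.mem_univ _) h
  simpa using h1

theorem one_le_ratio {X : Type} [MetricSpace X] [NeZero k]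
    (hX : ((k + 1 : ℕ) : ℕ∞) ≤ ENat.card X) (s : Fin k → X) (hfin : ratio s ≠ ⊤) :
    1 ≤ (ratio s).toReal := by
  classical
  obtain ⟨T0, hT0⟩ := exists_finset_card hX
  refine le_of_forall_gt_imp_ge_of_dense fun c hc => ?_
  obtain ⟨B, hB⟩ := good_of_lt hfin hc
  set T : Finset X := T0 ∪ Finset.univ.image s with hT
  have hsT : ∀ i, s i ∈ T := fun i =>
    Finset.mem_union_right _ (Finset.mem_image_of_mem s (Finset.mem_univ i))
  have hcard : ((k + 1 : ℕ) : ℕ∞) ≤ ENat.card T := by
    rw [ENat.card_eq_coe_fintype_card, Fintype.card_coe]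
    have := Finset.card_le_card (Finset.subset_union_left : T0 ⊆ T)
    rw [hT0] at this
    exact_mod_cast this
  exact one_le_of_isCompetitive hcard _ ((isCompetitive_iff _ _).2 ⟨B, good_restrict hB T hsT⟩)

/-- The refined strict inequality on every metric space, with the exact ratio. -/
theorem cost_exact {X : Type} [MetricSpace X] [NeZero k]
    (hX : ((k + 1 : ℕ) : ℕ∞) ≤ ENat.card X) (s : Fin k → X) (hs : Function.Injective s)
    (hfin : ratio s ≠ ⊤) (G : ℝ → ℝ)
    (hGb : ∀ (q : Fin k → X) (t : ℝ), mdist s q ≤ t → mdist s q ≤ G t) :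
    HasCost s Set.univ (fun σ =>
      (ratio s).toReal * opt s σ + ((ratio s).toReal - 1) * G (opt s σ)) := by
  classical
  set ρ := (ratio s).toReal with hρ
  have hρ1 : 1 ≤ ρ := one_le_ratio hX s hfin
  refine hasCost_of_lim s (fun n σ => (ρ + 1 / ((n : ℝ) + 1)) * opt s σ +
    (ρ + 1 / ((n : ℝ) + 1) - 1) * G (opt s σ) + 1 / ((n : ℝ) + 1)) _ ?_ ?_
  · intro σ
    have h1 : Tendsto (fun n : ℕ => 1 / ((n : ℝ) + 1)) atTop (𝓝 0) :=
      tendsto_one_div_add_atTop_nhds_zero_nat
    have h2 : Tendsto (fun n : ℕ => (ρ + 1 / ((n : ℝ) + 1)) * opt s σ +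
        (ρ + 1 / ((n : ℝ) + 1) - 1) * G (opt s σ) + 1 / ((n : ℝ) + 1)) atTop
        (𝓝 ((ρ + 0) * opt s σ + (ρ + 0 - 1) * G (opt s σ) + 0)) :=
      (((tendsto_const_nhds.add h1).mul_const _).add
        (((tendsto_const_nhds.add h1).sub_const _).mul_const _)).add h1
    simpa only [add_zero] using h2
  · intro F n
    have hpos : (0 : ℝ) < 1 / ((n : ℝ) + 1) := by positivity
    obtain ⟨B, hB⟩ := good_of_lt hfin (c := ρ + 1 / ((n : ℝ) + 1)) (by linarith)
    set T : Finset X := Finset.univ.image s ∪ F.biUnion (fun σ => σ.toFinset) with hT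
    have hsT : ∀ i, s i ∈ T := fun i =>
      Finset.mem_union_left _ (Finset.mem_image_of_mem s (Finset.mem_univ i))
    set s2 : Fin k → T := fun i => ⟨s i, hsT i⟩ with hs2
    have hs2inj : Function.Injective s2 := by
      intro x y hxy
      apply hs
      exact congrArg (Subtype.val : T → X) hxy
    have h1 := cost_refined s2 hs2inj (by linarith) (good_restrict hB T hsT) hpos G
      (fun q t hq => hGb (Subtype.val ∘ q) t hq)
    have : Nonempty T := ⟨s2 0⟩
    refine hasCost_embed (e := (Subtype.val : T → X)) isometry_subtype_coe h1 (fun σ => ?_) ?_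
    · have h2 := opt_embed (e := (Subtype.val : T → X)) isometry_subtype_coe σ s2
      have h3 : (Subtype.val : T → X) ∘ s2 = s := rfl
      rw [h3] at h2
      simp only [h2, le_refl]
    · intro σ hσ
      have h5 : ∀ x ∈ σ, x ∈ T := by
        intro x hx
        apply Finset.mem_union_right
        exact Finset.mem_biUnion.2 ⟨σ, hσ, List.mem_toFinset.2 hx⟩
      refine ⟨σ.attach.map (fun x => ⟨x.1, h5 x.1 x.2⟩), ?_⟩
      simp only [List.map_map, Function.comp_def, List.map_subtype, List.unattach_attach,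
        List.map_id_fun', id_eq]

theorem mdist_le_diam {X : Type} [MetricSpace X] {D : ℝ} (hD : ∀ x y : X, dist x y ≤ D)
    (p q : Fin k → X) : mdist p q ≤ k * D := by
  refine (mdist_le 1 p q).trans ?_
  unfold lab
  calc ∑ j, dist (p ((1 : Equiv.Perm (Fin k)) j)) (q j) ≤ ∑ _j : Fin k, D :=
        Finset.sum_le_sum fun j _ => hD _ _
    _ = k * D := by simp

/-- One policy which is strictly `(2 ρ - 1)`-competitive and, on a bounded space,
`ρ`-competitive with an explicit additive constant. -/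
theorem per_space {X : Type} [MetricSpace X] [NeZero k]
    (hX : ((k + 1 : ℕ) : ℕ∞) ≤ ENat.card X) (s : Fin k → X) (hs : Function.Injective s)
    (hfin : ratio s ≠ ⊤) :
    ∃ (Ω : Type) (_ : MeasurableSpace Ω) (P : Measure Ω) (A : Ω → List X → Fin k),
      IsProbabilityMeasure P ∧ (∀ h, Measurable fun ω => A ω h) ∧ ∀ σ : List X,
        ∫ ω, policyCost s (A ω) σ ∂P ≤ (2 * (ratio s).toReal - 1) * opt s σ ∧
        ∀ D : ℝ, (∀ x y : X, dist x y ≤ D) → ∫ ω, policyCost s (A ω) σ ∂P ≤
          (ratio s).toReal * opt s σ + ((ratio s).toReal - 1) * (k * D) := by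
  have hρ1 := one_le_ratio hX s hfin
  by_cases hb : ∃ D : ℝ, ∀ x y : X, dist x y ≤ D
  · obtain ⟨D₁, hD₁⟩ := hb
    have hbd : Bornology.IsBounded (Set.univ : Set X) :=
      Metric.isBounded_iff.2 ⟨D₁, fun x _ y _ => hD₁ x y⟩
    have hD0 : ∀ x y : X, dist x y ≤ Metric.diam (Set.univ : Set X) := fun x y =>
      Metric.dist_le_diam_of_mem hbd (Set.mem_univ x) (Set.mem_univ y)
    obtain ⟨Ω, m, P, A, h1, h2, h3⟩ := cost_exact hX s hs hfin
      (fun t => min t (k * Metric.diam (Set.univ : Set X)))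
      (fun q t hq => le_min hq (mdist_le_diam hD0 s q))
    refine ⟨Ω, m, P, A, h1, h2, fun σ => ⟨?_, fun D hD => ?_⟩⟩
    · refine (h3 σ (Set.mem_univ _)).trans ?_
      have := mul_le_mul_of_nonneg_left
        (min_le_left (opt s σ) (k * Metric.diam (Set.univ : Set X))) (sub_nonneg.2 hρ1)
      linarith
    · refine (h3 σ (Set.mem_univ _)).trans ?_
      have h4 : Metric.diam (Set.univ : Set X) ≤ D :=
        Metric.diam_le_of_forall_dist_le ((dist_nonneg).trans (hD (s 0) (s 0)))
          fun x _ y _ => hD x y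
      have h5 : min (opt s σ) (k * Metric.diam (Set.univ : Set X)) ≤ k * D :=
        (min_le_right _ _).trans (mul_le_mul_of_nonneg_left h4 (Nat.cast_nonneg k))
      have := mul_le_mul_of_nonneg_left h5 (sub_nonneg.2 hρ1)
      linarith
  · obtain ⟨Ω, m, P, A, h1, h2, h3⟩ := cost_exact hX s hs hfin (fun t => t) (fun q t hq => hq)
    refine ⟨Ω, m, P, A, h1, h2, fun σ => ⟨?_, fun D hD => absurd ⟨D, hD⟩ hb⟩⟩
    refine (h3 σ (Set.mem_univ _)).trans (le_of_eq ?_)
    ring

/-- On a bounded space the infimum in the ratio is attained, for every start. -/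
theorem attained {X : Type} [MetricSpace X] [NeZero k] (hR : R k ≠ ⊤)
    (hX : ((k + 1 : ℕ) : ℕ∞) ≤ ENat.card X) {D : ℝ} (hD : ∀ x y : X, dist x y ≤ D)
    (s : Fin k → X) : IsCompetitive s (ratio s).toReal := by
  classical
  obtain ⟨T0, hT0⟩ := exists_finset_card hX
  obtain ⟨g⟩ : Nonempty (Fin k ↪ T0) := by
    apply Function.Embedding.nonempty_of_card_le
    simp only [Fintype.card_fin, Fintype.card_coe, hT0, le_add_iff_nonneg_right, zero_le]
  set s1 : Fin k → X := fun i => (g i : X) with hs1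
  have hs1inj : Function.Injective s1 := Subtype.val_injective.comp g.injective
  have hfin : ∀ p : Fin k → X, ratio p ≠ ⊤ := fun p => ne_top_of_le_ne_top hR (ratio_le_R p)
  have hle : ∀ p p' : Fin k → X, (ratio p').toReal ≤ (ratio p).toReal := by
    intro p p'
    refine le_of_forall_gt_imp_ge_of_dense fun c hc => ?_
    obtain ⟨B, hB⟩ := good_of_lt (hfin p) hc
    have hc0 : 0 ≤ c := ENNReal.toReal_nonneg.trans hc.le
    have h1 : IsCompetitive p' c := (isCompetitive_iff _ _).2 ⟨_, hB.start hc0 p'⟩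
    lift c to ℝ≥0 using hc0
    have h2 := ENNReal.toReal_mono ENNReal.coe_ne_top (ratio_le h1)
    simpa using h2
  have heq : (ratio s).toReal = (ratio s1).toReal := le_antisymm (hle s1 s) (hle s s1)
  obtain ⟨Ω, m, P, A, h1, h2, h3⟩ := per_space hX s1 hs1inj (hfin s1)
  have h4 : Good s1 (ratio s1).toReal (((ratio s1).toReal - 1) * (k * D)) Set.univ :=
    ⟨Ω, m, P, A, h1, h2, fun σ _ => (h3 σ).2 D hD⟩
  rw [heq]
  exact (isCompetitive_iff _ _).2 ⟨_, h4.start ENNReal.toReal_nonneg s⟩

/-- Strict competitiveness with the constant `2 R k - 1`, for every space and every start. -/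
theorem strict_all {X : Type} [MetricSpace X] [NeZero k] (hR : R k ≠ ⊤) (s : Fin k → X) :
    Good s (2 * (R k).toReal - 1) 0 Set.univ := by
  set c := 2 * (R k).toReal - 1 with hc
  have hXc : ((k + 1 : ℕ) : ℕ∞) ≤ ENat.card (X × ℝ) := by
    have : Nonempty X := ⟨s 0⟩
    rw [ENat.card_eq_top_of_infinite]
    exact le_top
  have key : ∀ η : ℝ, 0 < η → Good s c ((1 + c) * (k * (k * η))) Set.univ := by
    intro η hη
    set s' : Fin k → X × ℝ := fun i => (s i, (i : ℝ) * η) with hs'
    have hinj : Function.Injective s' := by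
      intro i j hij
      have h1 : (i : ℝ) * η = (j : ℝ) * η := congrArg Prod.snd hij
      have h2 : (i : ℝ) = (j : ℝ) := mul_right_cancel₀ hη.ne' h1
      exact Fin.ext (by exact_mod_cast h2)
    have hfin : ratio s' ≠ ⊤ := ne_top_of_le_ne_top hR (ratio_le_R s')
    have hρ1 := one_le_ratio hXc s' hfin
    have hρR : (ratio s').toReal ≤ (R k).toReal := ENNReal.toReal_mono hR (ratio_le_R s')
    have hc0 : 0 ≤ c := by linarith
    obtain ⟨Ω, m, P, A, h1, h2, h3⟩ := per_space hXc s' hinj hfin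
    have h4 : Good s' (2 * (ratio s').toReal - 1) 0 Set.univ :=
      ⟨Ω, m, P, A, h1, h2, fun σ _ => by rw [add_zero]; exact (h3 σ).1⟩
    have h5 := (h4.mono (c' := c) (by linarith) le_rfl).start hc0
      ((fun x : X => (x, (0 : ℝ))) ∘ s)
    have h6 := Good.comap (e := fun x : X => (x, (0 : ℝ))) (s := s) (S := Set.univ)
      (S' := Set.univ) one_pos (fun a b => by simp [Prod.dist_eq]) (fun σ _ => Set.mem_univ _) h5
    refine h6.mono le_rfl ?_
    rw [div_one, zero_add]
    refine mul_le_mul_of_nonneg_left ?_ (by linarith)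
    unfold lab
    calc ∑ j, dist (((fun x : X => (x, (0 : ℝ))) ∘ s) ((1 : Equiv.Perm (Fin k)) j)) (s' j)
        ≤ ∑ _j : Fin k, k * η := by
          refine Finset.sum_le_sum fun j _ => ?_
          have hj : (j : ℝ) ≤ k := by exact_mod_cast j.2.le
          have hj0 : 0 ≤ (j : ℝ) * η := by positivity
          simp only [hs', Equiv.Perm.coe_one, id_eq, Function.comp_apply, Prod.dist_eq,
            dist_self, Real.dist_eq, zero_sub, abs_neg, abs_of_nonneg hj0]
          exact max_le (by positivity) (mul_le_mul_of_nonneg_right hj hη.le)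
      _ = k * (k * η) := by simp
  rw [good_iff_hasCost]
  refine hasCost_of_lim s (fun n σ => c * opt s σ + (1 + c) * (k * (k * (1 / ((n : ℝ) + 1)))))
    _ ?_ ?_
  · intro σ
    have h1 : Tendsto (fun n : ℕ => 1 / ((n : ℝ) + 1)) atTop (𝓝 0) :=
      tendsto_one_div_add_atTop_nhds_zero_nat
    have h2 : Tendsto (fun n : ℕ => c * opt s σ + (1 + c) * (k * (k * (1 / ((n : ℝ) + 1)))))
        atTop (𝓝 (c * opt s σ + (1 + c) * (k * (k * 0)))) :=
      tendsto_const_nhds.add (((h1.const_mul _).const_mul _).const_mul _)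
    simpa only [mul_zero] using h2
  · intro F n
    exact (key _ (by positivity)).subset (Set.subset_univ _)

end Vale.Agent.P304.N
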