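import Vale.Agent.N304.Strict
import Vale.Agent.P304.H328.Embed

/-!
# P304: one strictly competitive policy for all metric spaces and all starting positions
-/

open MeasureTheory
open scoped ENNReal NNReal

namespace Vale.Agent.P304.N

open Vale.Agent.P304 Vale.Agent.P304.H328

variable {k : ℕ}

section transfer

variable {X Y : Type} [MetricSpace X] [MetricSpace Y] {u : ℕ → X} {v : ℕ → Y}

theorem opt_transfer [NeZero k] (huv : ∀ a b, dist (u a) (u b) = dist (v a) (v b))
    (τ : List ℕ) : ∀ ι : Fin k → ℕ, opt (u ∘ ι) (τ.map u) ≤ opt (v ∘ ι) (τ.map v) := by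
  induction τ with
  | nil => intro ι; simp [opt_nil]
  | cons r τ ih =>
    intro ι
    obtain ⟨i, hi⟩ := exists_opt_cons (v ∘ ι) (v r) (τ.map v)
    rw [List.map_cons, List.map_cons, hi]
    refine (opt_cons_le _ _ _ i).trans ?_
    rw [← Function.comp_update, ← Function.comp_update, Function.comp_apply,
      Function.comp_apply, huv]
    exact add_le_add le_rfl (ih _)

theorem runCost_transfer (huv : ∀ a b, dist (u a) (u b) = dist (v a) (v b))
    (a : List X → Fin k) (b : List Y → Fin k) (τ : List ℕ) : ∀ (h : List ℕ) (ι : Fin k → ℕ),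
    (∀ h', h' <+: h ++ τ → a (h'.map u) = b (h'.map v)) →
    runCost a (h.map u) (u ∘ ι) (τ.map u) = runCost b (h.map v) (v ∘ ι) (τ.map v) := by
  induction τ with
  | nil => intro h ι _; simp [runCost]
  | cons r τ ih =>
    intro h ι hab
    have e1 : h.map u ++ [u r] = (h ++ [r]).map u := by simp
    have e2 : h.map v ++ [v r] = (h ++ [r]).map v := by simp
    have e3 : a ((h ++ [r]).map u) = b ((h ++ [r]).map v) :=
      hab _ ⟨τ, by simp⟩
    simp only [List.map_cons, runCost, e1, e2, e3]
    rw [← Function.comp_update, ← Function.comp_update, Function.comp_apply,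
      Function.comp_apply, huv, ih (h ++ [r]) _ (by simpa using hab)]

end transfer

/-- extension of a matrix by zero -/
noncomputable def zext {m : ℕ} (M : Fin m → Fin m → ℝ) : ℕ → ℕ → ℝ := fun i j =>
  if h : i < m ∧ j < m then M ⟨i, h.1⟩ ⟨j, h.2⟩ else 0

/-- One probability space for all starting positions in a space. -/
theorem common_space {U : Type} [MetricSpace U] [NeZero k] (hR : R k ≠ ⊤) :
    ∃ (Ω : Type) (_ : MeasurableSpace Ω) (P : Measure Ω)
      (A : Ω → (Fin k → U) → List U → Fin k),
      IsProbabilityMeasure P ∧ (∀ s h, Measurable fun ω => A ω s h) ∧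
        ∀ (s : Fin k → U) (σ : List U),
          ∫ ω, policyCost s (A ω s) σ ∂P ≤ (2 * (R k).toReal - 1) * opt s σ := by
  choose Ω m P A hP hA hc using fun s : Fin k → U => strict_all hR s
  refine ⟨∀ s, Ω s, inferInstance, Measure.infinitePi P, fun ω s => A s (ω s), inferInstance,
    fun s h => (hA s h).comp (measurable_pi_apply s), fun s σ => ?_⟩
  have h1 := hc s σ (Set.mem_univ _)
  rw [add_zero] at h1
  refine le_trans (le_of_eq ?_) h1
  have hm := measurePreserving_eval_infinitePi P s
  have hint : Integrable (fun ω => policyCost s (A s ω) σ) (P s) :=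
    integrable_policyCost (hA s) s σ
  rw [← hm.map_eq] at hint ⊢
  rw [integral_map hm.measurable.aemeasurable hint.aestronglyMeasurable]

/-- the starting positions and the requests as one sequence of points -/
theorem exists_points {X : Type} [NeZero k] (s : Fin k → X) (σ : List X) :
    ∃ u : ℕ → X, u ∘ (fun i : Fin k => (i : ℕ)) = s ∧
      (∀ t, t ≤ σ.length → (List.range' k t).map u = σ.take t) ∧
      ∀ h : List X, h <+: σ → ∀ i (hi : i < k + h.length), Fin.append s h.get ⟨i, hi⟩ = u i := by
  refine ⟨fun i => if h : i < k then s ⟨i, h⟩ else σ.getD (i - k) (s 0), ?_, ?_, ?_⟩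
  · funext i
    simp only [Function.comp_apply, i.2, dif_pos, Fin.eta]
  · intro t ht
    refine List.ext_getElem (by simp [ht]) fun i h1 h2 => ?_
    have h3 : i < σ.length := by
      rw [List.length_take] at h2; omega
    simp only [List.getElem_map, List.getElem_range', one_mul, List.getElem_take]
    rw [dif_neg (by omega), Nat.add_sub_cancel_left, List.getD_eq_getElem _ _ h3]
  · intro h hh i hi
    by_cases hik : i < k
    · have e : (⟨i, hi⟩ : Fin (k + h.length)) = Fin.castAdd h.length ⟨i, hik⟩ := rfl
      rw [e, Fin.append_left]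
      simp only [hik, dif_pos]
    · have hi' : i - k < h.length := by omega
      have e : (⟨i, hi⟩ : Fin (k + h.length)) = Fin.natAdd k ⟨i - k, hi'⟩ := by
        ext; simp only [Fin.val_natAdd]; omega
      rw [e, Fin.append_right]
      obtain ⟨w, rfl⟩ := hh
      simp only [hik, dif_neg, not_false_eq_true, List.get_eq_getElem]
      rw [List.getD_eq_getElem _ _ (by simp; omega), List.getElem_append_left hi']

theorem em_zext {m : ℕ} {M : Fin m → Fin m → ℝ} {D : ℕ → ℕ → ℝ}
    (h : ∀ a b (ha : a < m) (hb : b < m), M ⟨a, ha⟩ ⟨b, hb⟩ = D a b) {j : ℕ} (hj : j < m) :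
    em j (zext M) = em j D := by
  refine em_congr fun a ha b hb => ?_
  unfold zext
  rw [dif_pos ⟨by omega, by omega⟩]
  exact h _ _ _ _

/-- the places in the universal space depend only on the distances seen so far -/
theorem places_eq {X : Type} [MetricSpace X] (s : Fin k → X) (h : List X) (u : ℕ → X)
    (hu : ∀ i (hi : i < k + h.length), Fin.append s h.get ⟨i, hi⟩ = u i)
    (M : Fin (k + h.length) → Fin (k + h.length) → ℝ)
    (hM : M = fun i j => dist (Fin.append s h.get i) (Fin.append s h.get j))
    (v : ℕ → UU) (hv : ∀ i, v i = em i fun a b => dist (u a) (u b)) :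
    (fun i : Fin k => em i (zext M)) = v ∘ (fun i : Fin k => (i : ℕ)) ∧
      (List.range' k h.length).map (fun t => em t (zext M)) = (List.range' k h.length).map v := by
  have key : ∀ j, j < k + h.length → em j (zext M) = v j := by
    intro j hj
    rw [hv]
    refine em_zext (fun a b ha hb => ?_) hj
    rw [hM]
    simp only [hu]
  constructor
  · funext i
    exact key i (by have := i.2; omega)
  · refine List.map_congr_left fun t ht => ?_
    rw [List.mem_range'_1] at ht
    exact key t ht.2

theorem one_le_R [NeZero k] (hR : R k ≠ ⊤) : 1 ≤ (R k).toReal := by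
  have h4 : Rfin k ≤ R k := by
    unfold Rfin
    exact iSup_le fun X => iSup_le fun _ => iSup_le fun _ => iSup_le fun _ => iSup_le fun s =>
      ratio_le_R s
  simpa using ENNReal.toReal_mono hR (one_le_Rfin.trans h4)

/-- One randomized policy which sees only the distances between the starting positions and the
requests is strictly competitive on all metric spaces. -/
theorem universal_strict (hk : 1 ≤ k) (hR : R k ≠ ⊤) :
    ∃ (Ω : Type) (_ : MeasurableSpace Ω) (P : Measure Ω)
      (A : Ω → (n : ℕ) → (Fin (k + n) → Fin (k + n) → ℝ) → Fin k),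
      IsProbabilityMeasure P ∧ (∀ n M, Measurable fun ω => A ω n M) ∧
        ∀ (X : Type) [MetricSpace X] (s : Fin k → X) (a : Ω → List X → Fin k),
          (∀ ω h, a ω h = A ω h.length fun i j =>
            dist (Fin.append s h.get i) (Fin.append s h.get j)) →
          ∀ σ : List X, Integrable (fun ω => policyCost s (a ω) σ) P ∧
            ∫ ω, policyCost s (a ω) σ ∂P ≤ (2 * (R k).toReal - 1) * opt s σ := by
  have : NeZero k := ⟨by omega⟩
  obtain ⟨Ω, m, P, A, hP, hA, hc⟩ := common_space (U := UU) hR
  refine ⟨Ω, m, P, fun ω n M => A ω (fun i => em i (zext M))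
    ((List.range' k n).map fun t => em t (zext M)), hP, fun n M => hA _ _, ?_⟩
  intro X _ s a ha σ
  have hmeas : ∀ h, Measurable fun ω => a ω h := by
    intro h
    simp only [ha]
    exact hA _ _
  refine ⟨integrable_policyCost hmeas s σ, ?_⟩
  obtain ⟨u, hs, hpre, hkey⟩ := exists_points s σ
  obtain ⟨v, hv⟩ : ∃ v : ℕ → UU, ∀ i, v i = em i fun a b => dist (u a) (u b) := ⟨_, fun _ => rfl⟩
  have hDm : PsM fun a b => dist (u a) (u b) := ⟨fun _ => dist_self _, fun _ _ => dist_comm _ _,
    fun _ _ _ => dist_triangle _ _ _⟩
  have huv : ∀ a b, dist (u a) (u b) = dist (v a) (v b) := fun a b => by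
    rw [hv, hv, dist_em hDm a b]
  have hσ : (List.range' k σ.length).map u = σ := by
    rw [hpre _ le_rfl, List.take_length]
  have hcost : ∀ ω, policyCost s (a ω) σ =
      policyCost (v ∘ fun i : Fin k => (i : ℕ)) (A ω (v ∘ fun i : Fin k => (i : ℕ)))
        ((List.range' k σ.length).map v) := by
    intro ω
    rw [policyCost_eq, policyCost_eq]
    have h1 := runCost_transfer huv (a ω) (A ω (v ∘ fun i : Fin k => (i : ℕ)))
      (List.range' k σ.length) [] (fun i : Fin k => (i : ℕ)) ?_
    · rw [hs, hσ] at h1
      exact h1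
    · intro h' hh'
      rw [List.nil_append] at hh'
      have hlen : h'.length ≤ σ.length := by simpa using hh'.length_le
      have e1 : List.range' k h'.length = h' := by
        rw [List.prefix_iff_eq_take, List.take_range'_of_length_ge hlen] at hh'
        exact hh'.symm
      have e2 : h'.map u = σ.take h'.length := by
        rw [← hpre _ hlen, e1]
      have hp : h'.map u <+: σ := by rw [e2]; exact List.take_prefix _ _
      obtain ⟨e3, e4⟩ := places_eq s (h'.map u) u (hkey _ hp) _ rfl v hv
      have e5 : List.range' k (h'.map u).length = h' := by rw [List.length_map, e1]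
      rw [ha]
      exact congrArg₂ (A ω) e3 (e4.trans (congrArg (List.map v) e5))
  simp only [hcost]
  refine (hc _ _).trans ?_
  have h2 := opt_transfer (u := v) (v := u) (fun a b => (huv a b).symm)
    (List.range' k σ.length) (fun i : Fin k => (i : ℕ))
  rw [hs, hσ] at h2
  exact mul_le_mul_of_nonneg_left h2 (by linarith [one_le_R hR])

end Vale.Agent.P304.N
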